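import Mathlib
import Vale.Agent.Lib.P243.R3.Defs
import Vale.Agent.Lib.P243.R3.M5ab
import Vale.Agent.Lib.P243.R3.M5c
import Vale.Agent.Lib.P243.R3.M5d
import Vale.Agent.Lib.P243.R3.M5ef

/-!
# P243, `r_3 > 1/3`, module M6: every convex body has a calibration with constant below 3

`M6_of` is the assembly of M6 from the statements M1f (continuity of `Ahat K`), M1g
(`Ahat K` is nonnegative), M3a (`Ahat K (q - p) ≤ 3 vol K` for `p, q ∈ K`) and M4 (three
segments meeting every efficient chord), taken as hypotheses, and the landed M5 files.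
-/

namespace Vale.Agent.Lib.P243.R3

open MeasureTheory Set

theorem M6_of {K : Set E3} (hK : Body K)
    (hcont : Continuous (Ahat K))
    (hnn : ∀ w : E3, 0 ≤ Ahat K w)
    (hle : ∀ p ∈ K, ∀ q ∈ K, Ahat K (q - p) ≤ 3 * (volume K).toReal)
    (hhit : ∃ α β : Fin 3 → E3,
      ∀ p ∈ K, ∀ q ∈ K, p ≠ q → Ahat K (q - p) = 3 * (volume K).toReal →
        (p ∈ ⋃ j, segment ℝ (α j) (β j)) ∨ (q ∈ ⋃ j, segment ℝ (α j) (β j))) :
    ∃ (g : E3 → ℝ) (Θ : ℝ), 0 < Θ ∧ Θ < 3 ∧ Good K g Θ := by
  obtain ⟨α, β, hhit⟩ := hhit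
  set V : Set E3 := ⋃ j, segment ℝ (α j) (β j) with hV
  have hVne : V.Nonempty := ⟨α 0, mem_iUnion.2 ⟨0, left_mem_segment ℝ _ _⟩⟩
  set vol : ℝ := (volume K).toReal with hvol
  have hKfin : volume K ≠ ⊤ := hK.compact.measure_lt_top.ne
  have hvolpos : 0 < vol := by
    have h1 : 0 < volume (interior K) := isOpen_interior.measure_pos volume hK.int
    have h2 : 0 < volume K := lt_of_lt_of_le h1 (measure_mono interior_subset)
    exact ENNReal.toReal_pos h2.ne' hKfin
  obtain ⟨D1, hD1⟩ := Metric.isBounded_iff.1 hK.compact.isBounded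
  set D : ℝ := max D1 1 with hD
  have hD1le : (1 : ℝ) ≤ D := le_max_right _ _
  have hDpos : 0 < D := lt_of_lt_of_le one_pos hD1le
  have hdist : ∀ p ∈ K, ∀ q ∈ K, dist p q ≤ D :=
    fun p hp q hq => (hD1 hp hq).trans (le_max_left _ _)
  have hA0 : Ahat K 0 = 0 := by
    unfold Ahat
    rw [segment_same]
    simp
  obtain ⟨C, hC0, hC⟩ := M5c_bump_integral_le hK α β
  set τ : ℝ := min 1 (vol / (4 * D * (C + 1))) with hτ
  have hτpos : 0 < τ := lt_min one_pos (by positivity)
  have hτ1 : τ ≤ 1 := min_le_left _ _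
  have hτD : τ ≤ D := hτ1.trans hD1le
  set βb : ℝ := τ / (2 * D) with hβ
  have hβpos : 0 < βb := by positivity
  have hβle : βb ≤ 1 / 2 := by
    rw [hβ, div_le_iff₀ (by positivity)]
    nlinarith
  set b : E3 → ℝ := bump V τ with hb
  have hbcont : Continuous b := M5a_bump_continuous hVne hτpos
  have hb01 : ∀ x, 0 ≤ b x ∧ b x ≤ 1 := fun x => M5b_bump_mem V hτpos x
  have hIb : ∫ x in K, b x ≤ vol * (βb / 2) := by
    have h1 := hC τ hτpos hτ1
    have h2 : C * τ ^ 2 ≤ vol * (βb / 2) := by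
      have h3 : τ ≤ vol / (4 * D * (C + 1)) := min_le_right _ _
      have h4 : τ * (4 * D * (C + 1)) ≤ vol := by rwa [le_div_iff₀ (by positivity)] at h3
      have h5 := mul_le_mul_of_nonneg_right h4 hτpos.le
      have e : vol * (βb / 2) = vol * τ / (4 * D) := by
        rw [hβ]
        field_simp
        ring
      rw [e, le_div_iff₀ (by positivity)]
      nlinarith [mul_pos hDpos (sq_pos_of_pos hτpos)]
    exact h1.trans h2
  have hacont : Continuous (fun pq : E3 × E3 => avgSeg b pq.1 pq.2) :=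
    M5f_avgSeg_continuous hbcont
  have ha0 : ∀ p q, 0 ≤ avgSeg b p q := by
    intro p q
    unfold avgSeg
    apply intervalIntegral.integral_nonneg (by norm_num)
    intro t _
    exact (hb01 _).1
  have heff : ∀ p ∈ K, ∀ q ∈ K, Ahat K (q - p) = 3 * vol → βb ≤ avgSeg b p q := by
    intro p hp q hq he
    have hpq : p ≠ q := by
      rintro rfl
      rw [sub_self, hA0] at he
      linarith
    rcases hhit p hp q hq hpq he with h | h
    · exact M5d_avg_bump_ge h q hτpos hτD (hdist p hp q hq)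
    · rw [M5e_avgSeg_symm]
      exact M5d_avg_bump_ge h p hτpos hτD (hdist q hq p hp)
  set W : Set (E3 × E3) :=
    (K ×ˢ K) ∩ (fun pq : E3 × E3 => avgSeg b pq.1 pq.2) ⁻¹' Iic (3 * βb / 4) with hW
  have hWc : IsCompact W :=
    (hK.compact.prod hK.compact).inter_right (isClosed_Iic.preimage hacont)
  have hη : ∃ η : ℝ, 0 < η ∧ ∀ pq ∈ W, Ahat K (pq.2 - pq.1) ≤ 3 * vol - η := by
    by_cases hWe : W.Nonempty
    · have hAc : ContinuousOn (fun pq : E3 × E3 => Ahat K (pq.2 - pq.1)) W :=
        (hcont.comp (continuous_snd.sub continuous_fst)).continuousOn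
      obtain ⟨pq0, hpq0, hmax⟩ := hWc.exists_isMaxOn hWe hAc
      refine ⟨3 * vol - Ahat K (pq0.2 - pq0.1), ?_, ?_⟩
      · have h1 := hle pq0.1 hpq0.1.1 pq0.2 hpq0.1.2
        rcases lt_or_eq_of_le h1 with h | h
        · linarith
        · exfalso
          have h2 := heff pq0.1 hpq0.1.1 pq0.2 hpq0.1.2 h
          have h3 : avgSeg b pq0.1 pq0.2 ≤ 3 * βb / 4 := hpq0.2
          linarith
      · intro pq hpq
        have h1 : Ahat K (pq.2 - pq.1) ≤ Ahat K (pq0.2 - pq0.1) := hmax hpq
        linarith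
    · refine ⟨1, one_pos, ?_⟩
      intro pq hpq
      exact absurd ⟨pq, hpq⟩ hWe
  obtain ⟨η, hηpos, hηW⟩ := hη
  set ε : ℝ := min 1 (η / (3 * vol)) with hε
  have hεpos : 0 < ε := lt_min one_pos (by positivity)
  have hε1 : ε ≤ 1 := min_le_left _ _
  have hεη : ε * (3 * vol) ≤ η := by
    have h1 : ε ≤ η / (3 * vol) := min_le_right _ _
    rwa [le_div_iff₀ (by positivity)] at h1
  set g : E3 → ℝ := fun x => 1 + ε * (1 - b x) with hg
  have hden : 0 < 1 + ε * (1 - βb / 2) := by
    have : 0 ≤ ε * (1 - βb / 2) := mul_nonneg hεpos.le (by linarith)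
    linarith
  have hnum : 0 < 1 + ε * (1 - 3 * βb / 4) := by
    have : 0 ≤ ε * (1 - 3 * βb / 4) := mul_nonneg hεpos.le (by linarith)
    linarith
  set Θ : ℝ := 3 * (1 + ε * (1 - 3 * βb / 4)) / (1 + ε * (1 - βb / 2)) with hΘ
  have hΘpos : 0 < Θ := div_pos (mul_pos three_pos hnum) hden
  have hΘeq : Θ * (1 + ε * (1 - βb / 2)) = 3 * (1 + ε * (1 - 3 * βb / 4)) := by
    rw [hΘ, div_mul_cancel₀ _ hden.ne']
  refine ⟨g, Θ, hΘpos, ?_, ?_, ?_, ?_⟩
  · rw [hΘ, div_lt_iff₀ hden]
    nlinarith [mul_pos hεpos hβpos]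
  · exact continuous_const.add (continuous_const.mul (continuous_const.sub hbcont))
  · intro x
    have h1 := hb01 x
    have h2 : 0 ≤ ε * (1 - b x) := mul_nonneg hεpos.le (by linarith)
    have h3 : ε * (1 - b x) ≤ 1 * 1 :=
      mul_le_mul hε1 (by linarith) (by linarith) (by norm_num)
    constructor
    · simp only [hg]; linarith
    · simp only [hg]; linarith
  · intro p hp q hq
    have hag : avgSeg g p q = 1 + ε * (1 - avgSeg b p q) := by
      unfold avgSeg
      have hi : IntervalIntegrable (fun t : ℝ => b (p + t • (q - p))) volume 0 1 :=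
        (M5d_aux_cont V τ p q).intervalIntegrable 0 1
      have e1 : ∫ t in (0 : ℝ)..1, (1 + ε * (1 - b (p + t • (q - p))))
          = (∫ _t in (0 : ℝ)..1, (1 : ℝ)) + ∫ t in (0 : ℝ)..1, ε * (1 - b (p + t • (q - p))) :=
        intervalIntegral.integral_add intervalIntegrable_const
          ((intervalIntegrable_const.sub hi).const_mul ε)
      have e2 : ∫ t in (0 : ℝ)..1, (1 - b (p + t • (q - p)))
          = (∫ _t in (0 : ℝ)..1, (1 : ℝ)) - ∫ t in (0 : ℝ)..1, b (p + t • (q - p)) :=
        intervalIntegral.integral_sub intervalIntegrable_const hi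
      simp only [hg]
      rw [e1, intervalIntegral.integral_const_mul, e2]
      simp
    have hbint : IntegrableOn b K volume := hbcont.continuousOn.integrableOn_compact hK.compact
    have hgK : ∫ x in K, g x = vol * (1 + ε) - ε * ∫ x in K, b x := by
      have e : g = fun x => (1 + ε) - ε * b x := by
        funext x
        simp only [hg]
        ring
      have hfin : IsFiniteMeasure (volume.restrict K) :=
        ⟨by rw [Measure.restrict_apply_univ]; exact hK.compact.measure_lt_top⟩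
      have hc : Integrable (fun _ : E3 => (1 + ε)) (volume.restrict K) := integrable_const _
      have hb' : Integrable (fun x : E3 => ε * b x) (volume.restrict K) :=
        Integrable.const_mul hbint ε
      rw [e, integral_sub hc hb', setIntegral_const, integral_const_mul]
      simp only [Measure.real, smul_eq_mul]
      rw [← hvol]
    have hRHS : 3 * vol * (1 + ε * (1 - 3 * βb / 4)) ≤ Θ * ∫ x in K, g x := by
      have h1 : vol * (1 + ε * (1 - βb / 2)) ≤ ∫ x in K, g x := by
        rw [hgK]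
        nlinarith [mul_le_mul_of_nonneg_left hIb hεpos.le]
      calc 3 * vol * (1 + ε * (1 - 3 * βb / 4))
          = Θ * (vol * (1 + ε * (1 - βb / 2))) := by
            rw [mul_comm vol, ← mul_assoc, hΘeq]
            ring
        _ ≤ Θ * ∫ x in K, g x := mul_le_mul_of_nonneg_left h1 hΘpos.le
    refine le_trans ?_ hRHS
    rw [hag]
    have hA0' := hnn (q - p)
    have hA3 := hle p hp q hq
    have haa := ha0 p q
    by_cases hpW : (p, q) ∈ W
    · have hAη : Ahat K (q - p) ≤ 3 * vol - η := hηW (p, q) hpW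
      have s1 : (1 + ε * (1 - avgSeg b p q)) * Ahat K (q - p) ≤ (1 + ε) * Ahat K (q - p) := by
        apply mul_le_mul_of_nonneg_right _ hA0'
        nlinarith
      have s2 : (1 + ε) * Ahat K (q - p) ≤ (1 + ε) * (3 * vol - η) :=
        mul_le_mul_of_nonneg_left hAη (by positivity)
      have s3 : (1 + ε) * (3 * vol - η) ≤ 3 * vol := by nlinarith
      have s4 : 3 * vol ≤ 3 * vol * (1 + ε * (1 - 3 * βb / 4)) := by
        have h1 : 0 ≤ ε * (1 - 3 * βb / 4) := mul_nonneg hεpos.le (by linarith)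
        nlinarith [mul_nonneg hvolpos.le h1]
      linarith
    · have hgt : 3 * βb / 4 < avgSeg b p q := by
        by_contra hcon
        exact hpW ⟨⟨hp, hq⟩, not_lt.1 hcon⟩
      have s1 : (1 + ε * (1 - avgSeg b p q)) * Ahat K (q - p)
          ≤ (1 + ε * (1 - 3 * βb / 4)) * Ahat K (q - p) := by
        apply mul_le_mul_of_nonneg_right _ hA0'
        nlinarith
      have s2 : (1 + ε * (1 - 3 * βb / 4)) * Ahat K (q - p)
          ≤ (1 + ε * (1 - 3 * βb / 4)) * (3 * vol) :=
        mul_le_mul_of_nonneg_left hA3 hnum.le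
      linarith

end Vale.Agent.Lib.P243.R3
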